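import Vale.Agent.P344.Bdl.B5

open Filter Vale.Agent.P344 in
theorem Vale.Agent.Results.P344.Combined.result :
    -- the order of growth: with `c*` (`cStar`), `L(n)` is `c* n log n` up to a factor 4
    (∀ ε : ℝ, 0 < ε → ∀ᶠ n : ℕ in atTop,
      (cStar - ε) * (n * Real.logb 2 n) ≤ (L n : ℝ) ∧
      (L n : ℝ) ≤ (4 * cStar + ε) * (n * Real.logb 2 n)) ∧
    (Question ↔ 0 < cStar) ∧
    (¬ Question → (fun n : ℕ => (L n : ℝ)) =o[atTop] fun n : ℕ => (n : ℝ) * Real.logb 2 n) ∧
    -- the question is equivalent to the question for tame circuits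
    (Question ↔ ∃ c : ℝ, 0 < c ∧ ∀ K : ℝ, ∃ᶠ n : ℕ in atTop, ∀ P : List Gate,
      Tame K n P → ComputesDFT n P → c * (n * Real.logb 2 n) ≤ P.length) ∧
    -- lower bound of order `n log n` unless almost all additions cancel massively (maximum norm)
    (∀ (n : ℕ) (P : List Gate) (W : Finset ℕ), n ≠ 0 → ComputesDFT n P → W.card ≤ n →
      (((n : ℝ) - W.card) * Real.logb 2 n - Real.logb 2 (n.choose W.card)) / 2 ≤
        ∑ t ∈ additions P \ W, Real.logb 2 (cancellation (n := n) norm P t)) ∧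
    -- lower bound of order `n log n` unless almost all additions amplify or cancel (2-norm)
    (∀ (n : ℕ) (P : List Gate) (out : Fin n → ℕ), n ≠ 0 →
      (∀ k j : Fin n, form n P (out k) j =
        Complex.exp (2 * Real.pi * Complex.I * (k : ℕ) * (j : ℕ) / n)) →
      n * Real.logb 2 n ≤ ∑ t ∈ additions P, min (Real.logb 2 n)
        (amp n P out t * (11 + 4 * Real.logb 2 (cancellation (n := n) nrm P t)))) ∧
    -- lower bound of order `n log n` for symmetric circuits
    (∀ (n p A : ℕ) (P : List Gate), 0 < n → p.Prime → p ^ A ∣ n → ComputesDFT n P →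
      ShiftInvariant n (n / p ^ A) P → (p - 1) * A * n ≤ 2 * P.length) ∧
    -- linear lower bound for all circuits
    (∀ n : ℕ, 2 ≤ n → 4 * n ≤ L n + 2 * Nat.log 2 n + n.divisors.card + 4) :=
  ⟨fun _ hε => (Amp.lower hε).and (Amp.upper' hε), Amp.question_iff, Amp.littleO,
    Amp.question_iff_tame, fun _ _ W hn hP hW => Comb.cancel_bound hn hP W hW,
    fun _ _ _ hn h => Comb.stable_bound hn h,
    fun _ _ _ _ hn hp hpA h1 h2 => Sym.main hp hn hpA h1 h2, four_mul_le_L⟩
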